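import Vale.Agent.Lib.PolyTime.Typed
import Vale.Agent.P338.R2.H898.Zip

/-!
P338, disproof: cell machines. A program has a control state of an arbitrary encodable type, which
is transformed by functions computable in polynomial time, registers containing words, and data,
on which finitely many operations act. The control does not depend on the data.
-/

namespace Vale.Agent.P338.D.CM

open Vale.Agent.Lib.PolyTime (PT Enc esize Word)
open Function (update)

/-- Programs with oblivious control: `S`: control states, `R`: registers, `O`: operations on the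
data. -/
inductive HP (S R O : Type)
  | ctl (g : S → S)
  | load (r : R) (g : S → Word)
  | op (o : O)
  | seq (p q : HP S R O)
  | ite (c : S → Bool) (p q : HP S R O)
  | loop (c : S → Bool) (p : HP S R O)

/-- States: control state, registers, data. -/
@[ext] structure HS (S R D : Type) where
  /-- control state -/
  c : S
  /-- registers -/
  r : R → Word
  /-- data -/
  x : D

/-- Semantics of the operations on the data: `Mo o r x t x'`: with the words `r` in the registers
the operation `o` transforms the data `x` into `x'` at cost `t`. -/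
abbrev Sem (R O D : Type) := O → (R → Word) → D → ℕ → D → Prop

variable {S R O D : Type} [Enc S] [DecidableEq R]

/-- Big step semantics: `HExec Mo s P st a b st'`: all control states used have size at most `s`,
the operations on the data have the cost `a`, the number of control steps is `b`. -/
inductive HExec (Mo : Sem R O D) (s : ℕ) : HP S R O → HS S R D → ℕ → ℕ → HS S R D → Prop
  | ctl (g : S → S) (st : HS S R D) : esize st.c ≤ s →
      HExec Mo s (.ctl g) st 0 1 { st with c := g st.c }
  | load (k : R) (g : S → Word) (st : HS S R D) : esize st.c ≤ s →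
      HExec Mo s (.load k g) st 0 1 { st with r := update st.r k (g st.c) }
  | op (o : O) (st : HS S R D) (t : ℕ) (x' : D) : Mo o st.r st.x t x' →
      HExec Mo s (.op o) st t 0 { st with x := x' }
  | seq {p q : HP S R O} {st st1 st2 : HS S R D} {a a' b b' : ℕ} :
      HExec Mo s p st a b st1 → HExec Mo s q st1 a' b' st2 →
      HExec Mo s (.seq p q) st (a + a') (b + b') st2
  | iteT {c : S → Bool} {p q : HP S R O} {st st1 : HS S R D} {a b : ℕ} : esize st.c ≤ s →
      c st.c = true → HExec Mo s p st a b st1 → HExec Mo s (.ite c p q) st a (1 + b) st1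
  | iteF {c : S → Bool} {p q : HP S R O} {st st1 : HS S R D} {a b : ℕ} : esize st.c ≤ s →
      c st.c = false → HExec Mo s q st a b st1 → HExec Mo s (.ite c p q) st a (1 + b) st1
  | loopT {c : S → Bool} {p : HP S R O} {st st1 st2 : HS S R D} {a a' b b' : ℕ} :
      esize st.c ≤ s → c st.c = true → HExec Mo s p st a b st1 →
      HExec Mo s (.loop c p) st1 a' b' st2 →
      HExec Mo s (.loop c p) st (a + a') (1 + b + b') st2
  | loopF {c : S → Bool} {p : HP S R O} {st : HS S R D} : esize st.c ≤ s →
      c st.c = false → HExec Mo s (.loop c p) st 0 1 st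

/-- `HRun Mo s P st a b st'`: the same, cost at most `a` and at most `b` control steps. -/
def HRun (Mo : Sem R O D) (s : ℕ) (p : HP S R O) (st : HS S R D) (a b : ℕ) (st' : HS S R D) :
    Prop :=
  ∃ a' ≤ a, ∃ b' ≤ b, HExec Mo s p st a' b' st'

namespace HRun

variable {Mo : Sem R O D} {s : ℕ}

theorem mono {p : HP S R O} {st st' : HS S R D} {a a' b b' : ℕ} (h : HRun Mo s p st a b st')
    (ha : a ≤ a') (hb : b ≤ b') : HRun Mo s p st a' b' st' := by
  obtain ⟨u, hu, v, hv, h⟩ := h
  exact ⟨u, hu.trans ha, v, hv.trans hb, h⟩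

theorem congr {p : HP S R O} {st st' st'' : HS S R D} {a b : ℕ} (h : HRun Mo s p st a b st')
    (e : st' = st'') : HRun Mo s p st a b st'' := e ▸ h

theorem ctl (g : S → S) (st : HS S R D) (h : esize st.c ≤ s) :
    HRun Mo s (.ctl g) st 0 1 { st with c := g st.c } := ⟨0, le_rfl, 1, le_rfl, .ctl g st h⟩

theorem load (k : R) (g : S → Word) (st : HS S R D) (h : esize st.c ≤ s) :
    HRun Mo s (.load k g) st 0 1 { st with r := update st.r k (g st.c) } :=
  ⟨0, le_rfl, 1, le_rfl, .load k g st h⟩

theorem op {o : O} {st : HS S R D} {t : ℕ} {x' : D} (h : Mo o st.r st.x t x') :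
    HRun Mo s (.op o) st t 0 { st with x := x' } := ⟨_, le_rfl, _, le_rfl, .op o st t x' h⟩

theorem seq {p q : HP S R O} {st st1 st2 : HS S R D} {a a' b b' : ℕ}
    (h : HRun Mo s p st a b st1) (h' : HRun Mo s q st1 a' b' st2) :
    HRun Mo s (.seq p q) st (a + a') (b + b') st2 := by
  obtain ⟨u, hu, v, hv, h⟩ := h
  obtain ⟨u', hu', v', hv', h'⟩ := h'
  exact ⟨u + u', by omega, v + v', by omega, h.seq h'⟩

theorem ite {c : S → Bool} {p q : HP S R O} {st st1 : HS S R D} {a b : ℕ} (hs : esize st.c ≤ s)
    (h1 : c st.c = true → HRun Mo s p st a b st1) (h2 : c st.c = false → HRun Mo s q st a b st1) :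
    HRun Mo s (.ite c p q) st a (1 + b) st1 := by
  cases hc : c st.c
  · obtain ⟨u, hu, v, hv, h⟩ := h2 hc
    exact ⟨u, hu, 1 + v, by omega, .iteF hs hc h⟩
  · obtain ⟨u, hu, v, hv, h⟩ := h1 hc
    exact ⟨u, hu, 1 + v, by omega, .iteT hs hc h⟩

theorem loopT {c : S → Bool} {p : HP S R O} {st st1 st2 : HS S R D} {a a' b b' : ℕ}
    (hs : esize st.c ≤ s) (hc : c st.c = true) (h : HRun Mo s p st a b st1)
    (h' : HRun Mo s (.loop c p) st1 a' b' st2) :
    HRun Mo s (.loop c p) st (a + a') (1 + b + b') st2 := by
  obtain ⟨u, hu, v, hv, h⟩ := h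
  obtain ⟨u', hu', v', hv', h'⟩ := h'
  exact ⟨u + u', by omega, 1 + v + v', by omega, .loopT hs hc h h'⟩

theorem loopF {c : S → Bool} {p : HP S R O} {st : HS S R D} (hs : esize st.c ≤ s)
    (hc : c st.c = false) : HRun Mo s (.loop c p) st 0 1 st :=
  ⟨0, le_rfl, 1, le_rfl, .loopF hs hc⟩

/-- Rule for loops: `I i` is the state after `i` iterations. -/
theorem loop {c : S → Bool} {p : HP S R O} (n : ℕ) (I : ℕ → HS S R D) (a b : ℕ → ℕ)
    (hs : ∀ i ≤ n, esize (I i).c ≤ s) (hc : ∀ i < n, c (I i).c = true) (hn : c (I n).c = false)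
    (h : ∀ i < n, HRun Mo s p (I i) (a i) (b i) (I (i + 1))) :
    HRun Mo s (.loop c p) (I 0) (∑ i ∈ Finset.range n, a i)
      ((∑ i ∈ Finset.range n, (b i + 1)) + 1) (I n) := by
  induction n generalizing I a b with
  | zero => exact (loopF (hs 0 le_rfl) hn).mono (by simp) (by simp)
  | succ n ih =>
    have h1 := ih (fun i => I (i + 1)) (fun i => a (i + 1)) (fun i => b (i + 1))
      (fun i hi => hs (i + 1) (by omega))
      (fun i hi => hc (i + 1) (by omega)) hn (fun i hi => h (i + 1) (by omega))
    refine (loopT (hs 0 (by omega)) (hc 0 (by omega)) (h 0 (by omega)) h1).mono ?_ ?_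
    · rw [Finset.sum_range_succ']
      omega
    · rw [Finset.sum_range_succ']
      omega

end HRun

/-- All functions in the program are computable in polynomial time. -/
def HP.Ok : HP S R O → Prop
  | .ctl g => PT ∅ g
  | .load _ g => PT ∅ g
  | .op _ => True
  | .seq p q => p.Ok ∧ q.Ok
  | .ite c p q => PT ∅ c ∧ p.Ok ∧ q.Ok
  | .loop c p => PT ∅ c ∧ p.Ok

end Vale.Agent.P338.D.CM
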