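import Vale.Agent.P338.D.CM.Sim
import Vale.Agent.P338.R3.H313.Ctl
import Vale.Agent.P338.R3.H772.TopSpec

/-!
P338, disproof: the interpreter. A control state machine emits acts; an act is an operation on the
data together with words (the payload) for the registers.
-/

namespace Vale.Agent.P338.D.CM

set_option linter.unusedSectionVars false

open Vale.Agent.Lib.PolyTime (PT PB Enc enc esize Word pb PBd)
open Vale.Agent.P338.R2.H898 (Store Zip Prog Op Lens)
open Vale.Agent.P338.R3.H313
open Function (update)

/-- A run of the operations for a list of acts: `Trace Mo opc pay l x t x'`. -/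
inductive Trace {R O D A : Type} (Mo : Sem R O D) (opc : A → O) (pay : A → R → Word) :
    List A → D → ℕ → D → Prop
  | nil (x : D) : Trace Mo opc pay [] x 0 x
  | cons {a : A} {l : List A} {x x1 x' : D} {t t' : ℕ} : Mo (opc a) (pay a) x t x1 →
      Trace Mo opc pay l x1 t' x' → Trace Mo opc pay (a :: l) x (t + t') x'

theorem Trace.append {R O D A : Type} {Mo : Sem R O D} {opc : A → O} {pay : A → R → Word}
    {l l' : List A} {x x' x'' : D} {t t' : ℕ} (h : Trace Mo opc pay l x t x')
    (h' : Trace Mo opc pay l' x' t' x'') : Trace Mo opc pay (l ++ l') x (t + t') x'' := by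
  induction h with
  | nil x => simpa using h'
  | cons h1 _ ih =>
    rw [List.cons_append, Nat.add_assoc]
    exact .cons h1 (ih h')

theorem Trace.one {R O D A : Type} {Mo : Sem R O D} {opc : A → O} {pay : A → R → Word}
    {a : A} {x x' : D} {t : ℕ} (h : Mo (opc a) (pay a) x t x') :
    Trace Mo opc pay [a] x t x' := .cons h (.nil x')

/-- The same operation repeated. -/
theorem Trace.replicate {R O D A : Type} {Mo : Sem R O D} {opc : A → O} {pay : A → R → Word}
    {a : A} (n : ℕ) (x : ℕ → D) (t : ℕ → ℕ)
    (h : ∀ i < n, Mo (opc a) (pay a) (x i) (t i) (x (i + 1))) :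
    Trace Mo opc pay (List.replicate n a) (x 0) (∑ i ∈ Finset.range n, t i) (x n) := by
  induction n with
  | zero => exact .nil _
  | succ n ih =>
    rw [List.replicate_succ', Finset.sum_range_succ]
    exact (ih fun i hi => h i (by omega)).append (.one (h n (by omega)))

variable {S R O D A : Type} [Enc S] [Enc A] [DecidableEq R] [DecidableEq O]

/-- Does the state emit an act with the operation `o`? -/
def isOp (opc : A → O) (emit : S → Option A) (o : O) (s : S) : Bool :=
  match emit s with
  | none => false
  | some a => decide (opc a = o)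

/-- The word for the register `k`. -/
def payOf (pay : A → R → Word) (emit : S → Option A) (k : R) (s : S) : Word :=
  match emit s with
  | none => []
  | some a => pay a k

/-- Load the registers. -/
def loads (pay : A → R → Word) (emit : S → Option A) : List R → HP S R O
  | [] => .ctl fun s => s
  | k :: l => .seq (.load k (payOf pay emit k)) (loads pay emit l)

/-- Perform the operation of the emitted act. -/
def disp (opc : A → O) (pay : A → R → Word) (emit : S → Option A) (rs : List R) :
    List O → HP S R O
  | [] => .ctl fun s => s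
  | o :: l => .ite (isOp opc emit o) (.seq (loads pay emit rs) (.op o)) (disp opc pay emit rs l)

/-- The interpreter. -/
def interp (opc : A → O) (pay : A → R → Word) (emit : S → Option A) (halt : S → Bool)
    (next : S → S) (rs : List R) (os : List O) : HP S R O :=
  .loop (fun s => !halt s) (.seq (disp opc pay emit rs os) (.ctl next))

section ok

variable {opc : A → O} {pay : A → R → Word} {emit : S → Option A} {halt : S → Bool}
  {next : S → S}

theorem pt_isOp (ho : ∀ o, PT ∅ fun a => decide (opc a = o)) (he : PT ∅ emit) (o : O) :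
    PT ∅ (isOp opc emit o) :=
  (PT.optCase (f := fun _ => false) (g := fun _ a => decide (opc a = o)) he (PT.const false)
    ((ho o).comp PT.snd')).congr fun s => by
      unfold isOp
      cases emit s <;> rfl

theorem pt_payOf (hp : ∀ k, PT ∅ fun a => pay a k) (he : PT ∅ emit) (k : R) :
    PT ∅ (payOf pay emit k) :=
  (PT.optCase (f := fun _ => ([] : Word)) (g := fun _ a => pay a k) he (PT.const [])
    ((hp k).comp PT.snd')).congr fun s => by
      unfold payOf
      cases emit s <;> rfl

theorem loads_ok (hp : ∀ k, PT ∅ fun a => pay a k) (he : PT ∅ emit) (rs : List R) :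
    (loads pay emit rs : HP S R O).Ok := by
  induction rs with
  | nil => exact PT.id
  | cons k l ih => exact ⟨pt_payOf hp he k, ih⟩

theorem disp_ok (ho : ∀ o, PT ∅ fun a => decide (opc a = o)) (hp : ∀ k, PT ∅ fun a => pay a k)
    (he : PT ∅ emit) (rs : List R) (os : List O) : (disp opc pay emit rs os).Ok := by
  induction os with
  | nil => exact PT.id
  | cons o l ih => exact ⟨pt_isOp ho he o, ⟨loads_ok hp he rs, trivial⟩, ih⟩

theorem interp_ok (ho : ∀ o, PT ∅ fun a => decide (opc a = o)) (hp : ∀ k, PT ∅ fun a => pay a k)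
    (he : PT ∅ emit) (hh : PT ∅ halt) (hn : PT ∅ next) (rs : List R) (os : List O) :
    (interp opc pay emit halt next rs os).Ok :=
  ⟨hh.not, disp_ok ho hp he rs os, hn⟩

end ok

section run

variable {opc : A → O} {pay : A → R → Word} {emit : S → Option A} {halt : S → Bool}
  {next : S → S} {Mo : Sem R O D} {s : ℕ}

theorem run_loads (rs : List R) (st : HS S R D) (hs : esize st.c ≤ s) :
    HRun Mo s (loads pay emit rs) st 0 (rs.length + 1)
      { st with r := fun k => if k ∈ rs then payOf pay emit k st.c else st.r k } := by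
  induction rs generalizing st with
  | nil =>
    exact (HRun.ctl (Mo := Mo) (fun c => c) st hs).congr (HS.ext rfl (by simp) rfl)
  | cons k l ih =>
    have h1 := HRun.load (Mo := Mo) k (payOf pay emit k) st hs
    have h2 := ih { st with r := update st.r k (payOf pay emit k st.c) } hs
    refine ((h1.seq h2).mono (by omega) (by simp only [List.length_cons]; omega)).congr ?_
    refine HS.ext rfl ?_ rfl
    funext k'
    by_cases hk : k' ∈ l
    · simp [hk]
    · by_cases hk2 : k' = k
      · subst hk2
        simp [hk]
      · simp [hk, hk2]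

theorem run_disp_none {rs : List R} (os : List O) {st : HS S R D} (hs : esize st.c ≤ s)
    (he : emit st.c = none) : HRun Mo s (disp opc pay emit rs os) st 0 (os.length + 1) st := by
  induction os with
  | nil => exact HRun.ctl (Mo := Mo) (fun c => c) st hs
  | cons o l ih =>
    refine (HRun.ite hs (fun h => ?_) (fun _ => ih)).mono le_rfl
      (by simp only [List.length_cons]; omega)
    simp [isOp, he] at h

theorem run_disp_some {rs : List R} (hrs : ∀ k, k ∈ rs) (os : List O) {st : HS S R D}
    (hs : esize st.c ≤ s) {a : A} (he : emit st.c = some a) (ho : opc a ∈ os) {t : ℕ} {x' : D}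
    (h : Mo (opc a) (pay a) st.x t x') :
    HRun Mo s (disp opc pay emit rs os) st t (os.length + rs.length + 2)
      { st with r := pay a, x := x' } := by
  induction os with
  | nil => exact absurd ho (List.not_mem_nil)
  | cons o l ih =>
    by_cases hoa : opc a = o
    · have h1 := run_loads (Mo := Mo) (pay := pay) (emit := emit) rs st hs
      have h2 : HRun Mo s (.op o : HP S R O)
          { st with r := fun k => if k ∈ rs then payOf pay emit k st.c else st.r k } t 0
          { st with r := pay a, x := x' } := by
        have e : (fun k => if k ∈ rs then payOf pay emit k st.c else st.r k) = pay a := by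
          funext k
          simp [hrs k, payOf, he]
        rw [e]
        subst hoa
        exact HRun.op h
      refine (HRun.ite hs (fun _ => h1.seq h2) (fun h => ?_)).mono (by omega)
        (by simp only [List.length_cons]; omega)
      simp [isOp, he, hoa] at h
    · have h3 : opc a ∈ l := by
        rcases List.mem_cons.mp ho with h4 | h4
        · exact absurd h4 hoa
        · exact h4
      refine (HRun.ite hs (fun h => ?_) (fun _ => ih h3)).mono le_rfl
        (by simp only [List.length_cons]; omega)
      simp [isOp, he, hoa] at h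

/-- **The interpreter runs.** -/
theorem run_interp {rs : List R} (hrs : ∀ k, k ∈ rs) {os : List O} (hos : ∀ o, o ∈ os) (n : ℕ) :
    ∀ (c : S) (r : R → Word) (x : D) (t : ℕ) (x' : D),
      (∀ i ≤ n, esize (next^[i] c) ≤ s) → (∀ i < n, halt (next^[i] c) = false) →
      halt (next^[n] c) = true →
      Trace Mo opc pay ((List.range n).filterMap fun i => emit (next^[i] c)) x t x' →
      ∃ r', HRun Mo s (interp opc pay emit halt next rs os) ⟨c, r, x⟩ t
        ((os.length + rs.length + 4) * n + 1) ⟨next^[n] c, r', x'⟩ := by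
  induction n with
  | zero =>
    intro c r x t x' hs _ hh ht
    cases ht
    exact ⟨r, (HRun.loopF (hs 0 le_rfl) (by simpa using hh)).mono le_rfl (by omega)⟩
  | succ n ih =>
    intro c r x t x' hs hg hh ht
    have hsz := hs 0 (by omega)
    have hg0 := hg 0 (by omega)
    simp only [Function.iterate_zero, id_eq] at hsz hg0
    have hs' : ∀ i ≤ n, esize (next^[i] (next c)) ≤ s := fun i hi => hs (i + 1) (by omega)
    have hg' : ∀ i < n, halt (next^[i] (next c)) = false := fun i hi => hg (i + 1) (by omega)
    have hh' : halt (next^[n] (next c)) = true := hh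
    rw [List.range_succ_eq_map, List.filterMap_cons] at ht
    simp only [Function.iterate_zero, id_eq, List.filterMap_map] at ht
    have e : ((fun i => emit (next^[i] c)) ∘ Nat.succ) = fun i => emit (next^[i] (next c)) := rfl
    rw [e] at ht
    cases he : emit c with
    | none =>
      rw [he] at ht
      obtain ⟨r', h'⟩ := ih (next c) r x t x' hs' hg' hh' ht
      refine ⟨r', ?_⟩
      have h1 := run_disp_none (Mo := Mo) (opc := opc) (pay := pay) (rs := rs) os
        (st := ⟨c, r, x⟩) hsz he
      have h2 := h1.seq (HRun.ctl next _ hsz)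
      have h3 := HRun.loopT (c := fun s => !halt s) hsz (by simp [hg0]) h2 h'
      refine h3.mono (by omega) ?_
      rw [Nat.mul_add]
      omega
    | some a =>
      rw [he] at ht
      cases ht with
      | @cons _ _ _ x1 _ t1 t2 ha hl =>
        obtain ⟨r', h'⟩ := ih (next c) (pay a) x1 t2 x' hs' hg' hh' hl
        refine ⟨r', ?_⟩
        have h1 := run_disp_some (Mo := Mo) (rs := rs) hrs os (st := ⟨c, r, x⟩) hsz he (hos _) ha
        have h2 := h1.seq (HRun.ctl next _ hsz)
        have h3 := HRun.loopT (c := fun s => !halt s) hsz (by simp [hg0]) h2 h'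
        refine h3.mono (by omega) ?_
        rw [Nat.mul_add]
        omega

end run

/-! ### The core program -/

section core

variable {P : Type} [Enc P] [Finite O] [Finite R] {opc : A → O} {pay : A → R → Word}
  {nT : P → ℕ} {nU : P × ℕ → ℕ} {ins : P × ℕ × ℕ → List (ℕ × A)}

/-- **The program of an oblivious machine**: the acts of the control are performed on the data.
The exponent `c` depends only on the functions of the control, not on the data, the operations and
their programs. -/
theorem exists_core (ho : ∀ o, PT ∅ fun a => decide (opc a = o))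
    (hp : ∀ k, PT ∅ fun a => pay a k) (hT : PT ∅ nT) (hU : PT ∅ nU) (hI : PT ∅ ins) :
    ∃ V c : ℕ, ∀ {D M G α : Type} {d : α} {bit : Bool → α} {m0 : M} {repD : D → G → Zip α}
      {Mo : Sem R O D} {K : ℕ} (_ : bit true ≠ bit false) (_ : Ops d bit m0 repD Mo K) (W : ℕ),
      V ≤ W → ∃ core : Prog M (CF G R W) α, ∀ (p : P) (x : D) (t : ℕ) (x' : D),
      Trace Mo opc pay (Ctl.acts nT nU ins p) x t x' →
      ∃ r' : R → Word, Prog.Run d core
        ⟨m0, allZ W bit repD x (fun _ => []) (enc p) []⟩
        (K * t + (Ctl.iters nT nU ins p + 1) * pb c (esize p))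
        ⟨m0, allZ W bit repD x' r' (enc ((p, nT p, 0, []) : Ctl.St P A)) []⟩ := by
  have := Fintype.ofFinite O
  have := Fintype.ofFinite R
  set rs : List R := Finset.univ.toList with hrs
  set os : List O := Finset.univ.toList with hos
  obtain ⟨b, hbd, hsz⟩ := Ctl.exists_size_bound hT hU hI
  obtain ⟨V1, c1, h1⟩ := run_upd (Ctl.start (P := P) (A := A)) Ctl.pt_start
  obtain ⟨V2, c2, h2⟩ := HP.simRun (interp opc pay Ctl.emit (Ctl.halt nT)
    (Ctl.next nU ins) rs os) (interp_ok ho hp Ctl.pt_emit (Ctl.pt_halt hT) (Ctl.pt_next hU hI) _ _)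
  obtain ⟨c, hc⟩ := PBd.exists_PB ((PBd.of_PB (PB.pb c1)).add
    ((PBd.const (os.length + rs.length + 4)).mul ((hbd.add (PBd.const 2)).pow c2)))
  refine ⟨max V1 V2, c, fun {D M G α d bit m0 repD Mo K} hb hO W hW => ?_⟩
  obtain ⟨p1, hp1⟩ := h1 (R := R) (d := d) hb m0 repD W ((le_max_left _ _).trans hW)
  obtain ⟨p2, hp2⟩ := h2 hb hO W ((le_max_right _ _).trans hW)
  refine ⟨.seq p1 p2, fun p x t x' ht => ?_⟩
  set N := Ctl.iters nT nU ins p with hN
  have hrun := Ctl.run (nT := nT) (nU := nU) (ins := ins) p
  have hinv := fun i hi => hsz p _ (Ctl.Inv.iterate (nT := nT) (nU := nU) (ins := ins) p i hi)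
  obtain ⟨r', hr'⟩ := run_interp (Mo := Mo) (opc := opc) (pay := pay) (emit := Ctl.emit)
    (halt := Ctl.halt nT) (next := Ctl.next nU ins) (s := b p) (rs := rs) (by simp [hrs])
    (os := os) (by simp [hos]) N (Ctl.start p) (fun _ => []) x t x' hinv hrun.go
    (by rw [hrun.eq]; exact Ctl.halt_end p) (by rw [hrun.out]; exact ht)
  have r1 := hp1 p x (fun _ => [])
  have r2 := hp2 _ _ _ _ _ hr'
  have e0 : ((Ctl.next nU ins)^[N] (Ctl.start p) : Ctl.St P A) = (p, nT p, 0, []) := hrun.eq
  rw [e0] at r2
  refine ⟨r', (r1.seq r2).mono ?_⟩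
  have hcp := hc p
  have hpos : 1 ≤ (b p + 2) ^ c2 := Nat.one_le_pow _ _ (by omega)
  have e1 : (((os.length + rs.length + 4) * N + 1) * (b p + 2) ^ c2) ≤
      N * ((os.length + rs.length + 4) * (b p + 2) ^ c2) +
        (os.length + rs.length + 4) * (b p + 2) ^ c2 := by
    nlinarith [Nat.zero_le (os.length + rs.length)]
  have e2 : N * ((os.length + rs.length + 4) * (b p + 2) ^ c2) ≤ N * pb c (esize p) :=
    Nat.mul_le_mul_left _ (by omega)
  have e3 : (N + 1) * pb c (esize p) = N * pb c (esize p) + pb c (esize p) := by ring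
  rw [e3]
  beta_reduce at hcp
  clear_value N
  omega

/-- **The core program of the multiplication machine** (when the data at the start are the
operands and all other files are empty). -/
theorem coreSpec_of_trace (ho : ∀ o, PT ∅ fun a => decide (opc a = o))
    (hp : ∀ k, PT ∅ fun a => pay a k) (hT : PT ∅ nT) (hU : PT ∅ nU) (hI : PT ∅ ins) :
    ∃ W c : ℕ, ∀ {D M G α : Type} [DecidableEq G] {d : α} {bit : Bool → α} {m0 : M}
      {repD : D → G → Zip α} {Mo : Sem R O D} {K : ℕ} (_ : bit true ≠ bit false)
      (_ : Ops d bit m0 repD Mo K) {gx gy gr : G} {D0 : Word → Word → D}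
      (_ : ∀ x y, repD (D0 x y) = fun g =>
        if g = gx then ⟨[], x.map bit⟩ else if g = gy then ⟨[], y.map bit⟩ else ⟨[], []⟩)
      {V : Set P} {cap T : P → ℕ}
      (_ : ∀ p ∈ V, ∀ x y : Word, x.length = cap p → y.length = cap p → ∃ t ≤ T p, ∃ D' : D,
        Trace Mo opc pay (Ctl.acts nT nU ins p) (D0 x y) t D' ∧ ∃ z : Word,
          repD D' gr = ⟨[], z.map bit⟩ ∧ z.length = 2 * cap p ∧
          R3.H772.lval z = R3.H772.lval x * R3.H772.lval y),
      ∃ core : Prog M (CF G R W) α,
        R3.H772.CoreSpec d bit m0 core (.dat gx) (.dat gy) .st (.dat gr) V cap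
          (fun p => K * T p + (Ctl.iters nT nU ins p + 1) * pb c (esize p)) := by
  obtain ⟨W, c, hW⟩ := exists_core ho hp hT hU hI
  refine ⟨W, c, fun {D M G α} _ {d bit m0 repD Mo K} hb hO {gx gy gr D0} h0 {V cap T} h => ?_⟩
  obtain ⟨core, hcore⟩ := hW hb hO W le_rfl
  refine ⟨core, fun p hpV x y hx hy => ?_⟩
  obtain ⟨t, htT, D', htr, z, hz1, hz2, hz3⟩ := h p hpV x y hx hy
  obtain ⟨r', hs1⟩ := hcore p _ _ _ htr
  have e : R3.H772.coreIn bit (.dat gx : CF G R W) (.dat gy) .st x y (enc p) =
      allZ W bit repD (D0 x y) (fun _ => []) (enc p) [] := by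
    funext f
    cases f <;> simp [R3.H772.coreIn, allZ, h0]
  rw [e]
  exact ⟨_, z, hs1.mono (Nat.add_le_add_right (Nat.mul_le_mul_left _ htT) _), hz1, hz2, hz3⟩

end core

end Vale.Agent.P338.D.CM
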