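import Vale.Agent.P338.D.CM.HP
import Vale.Agent.P338.R2.H235.Ctl
import Vale.Agent.P338.R2.H898.Frame

/-!
P338, disproof: simulation of cell machines by programs on files.
-/

namespace Vale.Agent.P338.D.CM

set_option linter.unusedSectionVars false

open Vale.Agent.Lib.PolyTime (PT Enc enc esize Word pb)
open Vale.Agent.P338.R2.H898 (Store Zip Prog Op Lens)
open Vale.Agent.P338.R2.H235 (Lay Free HoldsVal exists_upd exists_write exists_call updProg
  writeProg callProg clr run_clr)
open Function (update)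

/-- Files: files of the operations (data, scratch, machines), registers, the control state, a
temporary file, scratch files of the control. -/
inductive CF (G R : Type) (W : ℕ)
  | dat (g : G)
  | reg (r : R)
  | st
  | tmp
  | scr (i : Fin W)

noncomputable instance {G R : Type} {W : ℕ} : DecidableEq (CF G R W) := Classical.decEq _

instance {G R : Type} {W : ℕ} [Finite G] [Finite R] : Finite (CF G R W) := by
  let f : CF G R W → Option (Option (G ⊕ (R ⊕ Fin W))) := fun
    | .st => none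
    | .tmp => some none
    | .dat g => some (some (.inl g))
    | .reg r => some (some (.inr (.inl r)))
    | .scr i => some (some (.inr (.inr i)))
  refine Finite.of_injective f ?_
  intro a b h
  cases a <;> cases b <;> simp_all [f]

/-- The scratch files. -/
def CF.ι (G R : Type) (W : ℕ) (i : ℕ) : CF G R W :=
  if h : i < W then .scr ⟨i, h⟩ else .tmp

/-- The files used by the operations. -/
def CF.io {G R : Type} {W : ℕ} : G ⊕ R → CF G R W
  | .inl g => .dat g
  | .inr r => .reg r

theorem CF.io_inj {G R : Type} {W : ℕ} : Function.Injective (CF.io : G ⊕ R → CF G R W) := by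
  intro a b h
  cases a <;> cases b <;> simp_all [CF.io]

theorem CF.ι_of_lt {G R : Type} {W i : ℕ} (h : i < W) : CF.ι G R W i = .scr ⟨i, h⟩ := by
  simp [CF.ι, h]

theorem CF.lay {G R : Type} {W V : ℕ} (h : V ≤ W) : Lay (CF.ι G R W) V (.st : CF G R W) .tmp where
  inj i hi j hj e := by
    rw [CF.ι_of_lt (hi.trans_le h), CF.ι_of_lt (hj.trans_le h)] at e
    simpa using e
  ne := by simp
  st i hi := by
    rw [CF.ι_of_lt (hi.trans_le h)]
    simp
  tmp i hi := by
    rw [CF.ι_of_lt (hi.trans_le h)]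
    simp

variable {S R O D : Type} [Enc S] [DecidableEq R] {M G α : Type}

/-- The files of the operations: data and registers. -/
def ioZ (bit : Bool → α) (repD : D → G → Zip α) (x : D) (r : R → Word) : G ⊕ R → Zip α
  | .inl g => repD x g
  | .inr k => ⟨[], (r k).map bit⟩

/-- All files: `v` is the content of the control file, `w` of the temporary file. -/
def allZ (W : ℕ) (bit : Bool → α) (repD : D → G → Zip α) (x : D) (r : R → Word) (v w : Word) :
    CF G R W → Zip α
  | .dat g => repD x g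
  | .reg k => ⟨[], (r k).map bit⟩
  | .st => ⟨[], v.map bit⟩
  | .tmp => ⟨[], w.map bit⟩
  | .scr _ => ⟨[], []⟩

/-- The store of a state. -/
def repS (W : ℕ) (bit : Bool → α) (m0 : M) (repD : D → G → Zip α) (st : HS S R D) (w : Word) :
    Store M (CF G R W) α := ⟨m0, allZ W bit repD st.x st.r (enc st.c) w⟩

/-- The operations are implemented by programs. -/
def Ops (d : α) (bit : Bool → α) (m0 : M) (repD : D → G → Zip α) (Mo : Sem R O D) (K : ℕ) : Prop :=
  ∀ o : O, ∃ (_ : DecidableEq (G ⊕ R)) (p : Prog M (G ⊕ R) α),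
    ∀ (r : R → Word) (x : D) (t : ℕ) (x' : D), Mo o r x t x' →
      Prog.Run d p ⟨m0, ioZ bit repD x r⟩ (K * t) ⟨m0, ioZ bit repD x' r⟩

section files

variable {W : ℕ} {bit : Bool → α} {m0 : M} {repD : D → G → Zip α}

omit [DecidableEq R] in
theorem free_allZ {V : ℕ} (h : V ≤ W) (x : D) (r : R → Word) (v : Word) :
    Free (CF.ι G R W) V .tmp (allZ W bit repD x r v []) := by
  refine ⟨rfl, fun i hi => ?_⟩
  rw [CF.ι_of_lt (hi.trans_le h)]
  rfl

omit [DecidableEq R] in
theorem upd_st (x : D) (r : R → Word) (v v' w : Word) :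
    update (allZ W bit repD x r v w) (.st : CF G R W) ⟨[], v'.map bit⟩ =
      allZ W bit repD x r v' w := by
  funext f
  cases f <;> simp [allZ]

omit [DecidableEq R] in
theorem upd_tmp (x : D) (r : R → Word) (v w w' : Word) :
    update (allZ W bit repD x r v w) (.tmp : CF G R W) ⟨[], w'.map bit⟩ =
      allZ W bit repD x r v w' := by
  funext f
  cases f <;> simp [allZ]

theorem upd_reg (x : D) (r : R → Word) (v w : Word) (k : R) (u : Word) :
    update (allZ W bit repD x r v w) (.reg k : CF G R W) ⟨[], u.map bit⟩ =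
      allZ W bit repD x (update r k u) v w := by
  funext f
  cases f with
  | reg k' =>
    by_cases h : k' = k
    · subst h
      simp [allZ]
    · simp [allZ, h]
  | _ => simp [allZ]

end files

section steps

/-- Update of the control state, from any type of values to any other. The numbers `V`, `c` depend
only on the function. -/
theorem run_upd {β γ : Type} [Enc β] [Enc γ] (f : β → γ) (hf : PT ∅ f) :
    ∃ V c : ℕ, ∀ {R D M G α : Type} {d : α} {bit : Bool → α} (_ : bit true ≠ bit false) (m0 : M)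
      (repD : D → G → Zip α) (W : ℕ), V ≤ W → ∃ p : Prog M (CF G R W) α,
      ∀ (a : β) (x : D) (r : R → Word),
      Prog.Run d p ⟨m0, allZ W bit repD x r (enc a) []⟩ (pb c (esize a))
        ⟨m0, allZ W bit repD x r (enc (f a)) []⟩ := by
  obtain ⟨p, V, c, hV, h⟩ := exists_upd hf
  refine ⟨V, c, fun {R D M G α d bit} hb m0 repD W hW =>
    ⟨updProg bit p .st .tmp (CF.ι G R W), fun a x r => ?_⟩⟩
  have := h (d := d) (M := M) (CF.lay (G := G) (R := R) hW) hb m0
    (allZ W bit repD x r (enc a) []) a rfl (free_allZ hW x r _)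
  rwa [upd_st] at this

theorem run_load {β R : Type} [Enc β] [DecidableEq R] (k : R) (f : β → Word) (hf : PT ∅ f) :
    ∃ V c : ℕ, ∀ {D M G α : Type} {d : α} {bit : Bool → α} (_ : bit true ≠ bit false) (m0 : M)
      (repD : D → G → Zip α) (W : ℕ), V ≤ W → ∃ p : Prog M (CF G R W) α,
      ∀ (a : β) (x : D) (r : R → Word),
      Prog.Run d p ⟨m0, allZ W bit repD x r (enc a) []⟩ (pb c (esize a))
        ⟨m0, allZ W bit repD x (update r k (f a)) (enc a) []⟩ := by
  obtain ⟨p, V, c, hV, h⟩ := exists_write hf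
  refine ⟨V, c + 2, fun {D M G α d bit} hb m0 repD W hW => ⟨.seq (clr (.reg k))
    (writeProg bit p .st .tmp (CF.ι G R W) (.reg k)), fun a x r => ?_⟩⟩
  have h1 := run_clr (d := d) (.reg k) m0 (allZ W bit repD x r (enc a) [])
  have e1 : update (allZ W bit repD x r (enc a) []) (.reg k : CF G R W) ⟨[], []⟩ =
      allZ W bit repD x (update r k []) (enc a) [] := upd_reg (bit := bit) x r (enc a) [] k []
  rw [e1] at h1
  have h2 := h (d := d) (M := M) (CF.lay (G := G) (R := R) hW) hb (.reg k) (by simp)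
    (fun i hi => by rw [CF.ι_of_lt (hi.trans_le hW)]; simp) m0
    (allZ W bit repD x (update r k []) (enc a) []) a rfl (free_allZ hW x _ _)
    (by simp [allZ])
  rw [upd_reg, Function.update_idem] at h2
  refine (h1.seq h2).mono ?_
  unfold pb
  rw [pow_add]
  have h3 : 1 ≤ (esize a + 2) ^ c := Nat.one_le_pow _ _ (by omega)
  have h4 : 4 ≤ (esize a + 2) ^ 2 := by nlinarith [Nat.zero_le (esize a)]
  have h5 := Nat.mul_le_mul_left ((esize a + 2) ^ c) h4
  omega

theorem run_cond {β : Type} [Enc β] (f : β → Bool) (hf : PT ∅ f) :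
    ∃ V c : ℕ, ∀ {R D M G α : Type} {d : α} {bit : Bool → α} (_ : bit true ≠ bit false) (m0 : M)
      (repD : D → G → Zip α) (W : ℕ), V ≤ W → ∃ p : Prog M (CF G R W) α,
      ∀ (a : β) (x : D) (r : R → Word),
      Prog.Run d p ⟨m0, allZ W bit repD x r (enc a) []⟩ (pb c (esize a))
        ⟨m0, allZ W bit repD x r (enc a) (enc (f a))⟩ := by
  obtain ⟨p, V, c, hV, h⟩ := exists_call hf
  refine ⟨V, c, fun {R D M G α d bit} hb m0 repD W hW =>
    ⟨callProg bit p .st .tmp (CF.ι G R W), fun a x r => ?_⟩⟩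
  have hL := CF.lay (G := G) (R := R) hW
  have hF := free_allZ (bit := bit) (repD := repD) hW x r (enc a)
  have := h (d := d) (M := M) hL.inj hb hL.ne hL.st hL.tmp m0
    (allZ W bit repD x r (enc a) []) a rfl hF.1 hF.2
  rwa [upd_tmp] at this

theorem run_clrT {β : Type} [Enc β] {d : α} {bit : Bool → α} (m0 : M) (repD : D → G → Zip α)
    (W : ℕ) (a : β) (x : D) (r : R → Word) (w : Word) :
    Prog.Run d (clr .tmp : Prog M (CF G R W) α) ⟨m0, allZ W bit repD x r (enc a) w⟩ 2
      ⟨m0, allZ W bit repD x r (enc a) []⟩ := by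
  have h1 := run_clr (d := d) .tmp m0 (allZ W bit repD x r (enc a) w)
  have e1 : update (allZ W bit repD x r (enc a) w) (.tmp : CF G R W) ⟨[], []⟩ =
      allZ W bit repD x r (enc a) [] := upd_tmp (bit := bit) x r (enc a) w []
  rwa [e1] at h1

end steps

open Classical in
/-- The test of the flag. -/
noncomputable def tst (bit : Bool → α) {G R : Type} {W : ℕ} (_ : M) (x : CF G R W → Option α) :
    Bool := decide (x .tmp = some (bit true))

theorem tst_repS {bit : Bool → α} (hb : bit true ≠ bit false) {W : ℕ} {m0 : M}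
    {repD : D → G → Zip α} (st : HS S R D) (b : Bool) :
    tst bit (repS W bit m0 repD st (enc b)).m (repS W bit m0 repD st (enc b)).reads = b := by
  cases b <;> simp [tst, repS, Store.reads, Zip.peek, allZ, Vale.Agent.Lib.PolyTime.enc_bool,
    hb.symm]

theorem four_mul_le (y s : ℕ) : y * 4 ≤ y * (s + 2) ^ 2 :=
  Nat.mul_le_mul_left _ (by nlinarith [Nat.zero_le s])

/-- The cost of control steps. -/
theorem pb_le {c c' s : ℕ} {n : ℕ} (hc : c ≤ c') (hs : n ≤ s) : pb c n ≤ (s + 2) ^ c' :=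
  (Nat.pow_le_pow_left (by omega) c).trans (Nat.pow_le_pow_right (by omega) hc)

/-- **Frame rule**: a program on the files of the operations among all files. -/
theorem run_io {d : α} {bit : Bool → α} {W : ℕ} {m0 : M} {repD repD' : D → G → Zip α}
    [DecidableEq (G ⊕ R)] {q : Prog M (G ⊕ R) α} {x x' : D} {r r' : R → Word} {t : ℕ}
    (hq : Prog.Run d q ⟨m0, ioZ bit repD x r⟩ t ⟨m0, ioZ bit repD' x' r'⟩) (v w : Word) :
    Prog.Run d (q.map (Lens.idL M) CF.io) ⟨m0, allZ W bit repD x r v w⟩ t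
      ⟨m0, allZ W bit repD' x' r' v w⟩ := by
  have h2 := hq.map (L := Lens.idL M) (ι := (CF.io : G ⊕ R → CF G R W)) CF.io_inj
    (S := ⟨m0, allZ W bit repD x r v w⟩) (by
      unfold Store.pull Lens.idL
      simp only [Store.mk.injEq, true_and]
      funext f
      cases f <;> rfl)
  have e : Store.put (Lens.idL M) (CF.io : G ⊕ R → CF G R W) ⟨m0, allZ W bit repD x r v w⟩
      ⟨m0, ioZ bit repD' x' r'⟩ = ⟨m0, allZ W bit repD' x' r' v w⟩ := by
    refine Store.ext rfl ?_
    funext f
    by_cases hf : ∃ g, (CF.io g : CF G R W) = f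
    · obtain ⟨g, rfl⟩ := hf
      rw [Store.put_z_apply CF.io_inj]
      cases g <;> rfl
    · rw [Store.put_z_of_notMem _ _ (fun g hg => hf ⟨g, hg⟩)]
      cases f with
      | dat g => exact absurd ⟨.inl g, rfl⟩ hf
      | reg g => exact absurd ⟨.inr g, rfl⟩ hf
      | _ => rfl
  rw [e] at h2
  exact h2

section sim

variable {Mo : Sem R O D} {d : α} {bit : Bool → α} {m0 : M} {repD : D → G → Zip α}

theorem loop_aux {c : S → Bool} {P : HP S R O} {s U V K W : ℕ} {p pc : Prog M (CF G R W) α}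
    (hb : bit true ≠ bit false) (hU : 3 + V ≤ U)
    (hc : ∀ st : HS S R D, esize st.c ≤ s →
      Prog.Run d pc (repS W bit m0 repD st []) V (repS W bit m0 repD st (enc (c st.c))))
    (hp : ∀ (st : HS S R D) a b st', HExec Mo s P st a b st' →
      Prog.Run d p (repS W bit m0 repD st []) (K * a + b * U) (repS W bit m0 repD st' []))
    {st st' : HS S R D} {a b : ℕ} (h : HExec Mo s (.loop c P) st a b st') :
    esize st.c ≤ s ∧ 1 ≤ b ∧ Prog.Run d (.loop (tst bit) (.seq (clr .tmp) (.seq p pc)))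
      (repS W bit m0 repD st (enc (c st.c))) (K * a + b * U)
      (repS W bit m0 repD st' (enc false)) := by
  generalize hg : HP.loop c P = g at h
  induction h with
  | ctl => cases hg
  | load => cases hg
  | op => cases hg
  | seq => cases hg
  | iteT => cases hg
  | iteF => cases hg
  | @loopT c' P' st st1 st2 a1 a2 b1 b2 hs hct h1 h2 _ ih2 =>
    cases hg
    obtain ⟨k1, k2, k3⟩ := ih2 rfl
    refine ⟨hs, by omega, ?_⟩
    have r1 := (run_clrT (d := d) (bit := bit) m0 repD W st.c st.x st.r (enc (c st.c))).seq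
      ((hp _ _ _ _ h1).seq (hc st1 k1))
    have r2 := Prog.Run.loopT (c := tst bit)
      ((tst_repS (S := S) hb (m0 := m0) (repD := repD) (W := W) st (c st.c)).trans hct) r1 k3
    refine r2.mono ?_
    have e : (1 + b1 + b2) * U = U + b1 * U + b2 * U := by ring
    have e2 : K * (a1 + a2) = K * a1 + K * a2 := by ring
    rw [e, e2]
    omega
  | @loopF c' P' st hs hcf =>
    cases hg
    refine ⟨hs, le_rfl, ?_⟩
    rw [hcf]
    refine (Prog.Run.loopF (c := tst bit) (by rw [tst_repS hb])).mono ?_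
    omega

/-- **Simulation of cell machines.** -/
theorem HP.sim (P : HP S R O) (hP : P.Ok) :
    ∃ V c : ℕ, ∀ {D M G α : Type} {d : α} {bit : Bool → α} {m0 : M} {repD : D → G → Zip α}
      {Mo : Sem R O D} {K : ℕ} (_ : bit true ≠ bit false) (_ : Ops d bit m0 repD Mo K) (W : ℕ),
      V ≤ W → ∃ p : Prog M (CF G R W) α,
      ∀ (s : ℕ) (st : HS S R D) (a b : ℕ) (st' : HS S R D), HExec Mo s P st a b st' →
        Prog.Run d p (repS W bit m0 repD st []) (K * a + b * (s + 2) ^ c)
          (repS W bit m0 repD st' []) := by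
  induction P with
  | ctl g =>
    obtain ⟨V, c, h⟩ := run_upd g hP
    refine ⟨V, c, fun {D M G α d bit m0 repD Mo K} hb hO W hW => ?_⟩
    obtain ⟨p, hp⟩ := h (R := R) (d := d) hb m0 repD W hW
    refine ⟨p, fun s st a b st' hr => ?_⟩
    cases hr with
    | ctl _ _ hs => exact (hp st.c st.x st.r).mono (by
        rw [one_mul, Nat.mul_zero, Nat.zero_add]; exact pb_le le_rfl hs)
  | load k g =>
    obtain ⟨V, c, h⟩ := run_load k g hP
    refine ⟨V, c, fun {D M G α d bit m0 repD Mo K} hb hO W hW => ?_⟩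
    obtain ⟨p, hp⟩ := h (d := d) hb m0 repD W hW
    refine ⟨p, fun s st a b st' hr => ?_⟩
    cases hr with
    | load _ _ _ hs => exact (hp st.c st.x st.r).mono (by
        rw [one_mul, Nat.mul_zero, Nat.zero_add]; exact pb_le le_rfl hs)
  | op o =>
    refine ⟨0, 0, fun {D M G α d bit m0 repD Mo K} hb hO W _ => ?_⟩
    obtain ⟨_, q, hq⟩ := hO o
    refine ⟨q.map (Lens.idL M) CF.io, fun s st a b st' hr => ?_⟩
    cases hr with
    | op _ _ _ x' ha =>
      exact (run_io (hq st.r st.x a x' ha) _ _).mono (Nat.le_add_right _ _)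
  | seq P Q ihP ihQ =>
    obtain ⟨V1, c1, h1⟩ := ihP hP.1
    obtain ⟨V2, c2, h2⟩ := ihQ hP.2
    refine ⟨max V1 V2, max c1 c2, fun {D M G α d bit m0 repD Mo K} hb hO W hW => ?_⟩
    obtain ⟨p, hp⟩ := h1 hb hO W ((le_max_left _ _).trans hW)
    obtain ⟨q, hq⟩ := h2 hb hO W ((le_max_right _ _).trans hW)
    refine ⟨.seq p q, fun s st a b st' hr => ?_⟩
    cases hr with
    | @seq _ _ _ st1 _ a1 a2 b1 b2 k1 k2 =>
      refine ((hp s _ _ _ _ k1).seq (hq s _ _ _ _ k2)).mono ?_
      have e1 : b1 * (s + 2) ^ c1 ≤ b1 * (s + 2) ^ max c1 c2 :=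
        Nat.mul_le_mul_left _ (Nat.pow_le_pow_right (by omega) (le_max_left _ _))
      have e2 : b2 * (s + 2) ^ c2 ≤ b2 * (s + 2) ^ max c1 c2 :=
        Nat.mul_le_mul_left _ (Nat.pow_le_pow_right (by omega) (le_max_right _ _))
      have e3 : (b1 + b2) * (s + 2) ^ max c1 c2 =
        b1 * (s + 2) ^ max c1 c2 + b2 * (s + 2) ^ max c1 c2 := by ring
      have e4 : K * (a1 + a2) = K * a1 + K * a2 := by ring
      rw [e3, e4]
      omega
  | ite c P Q ihP ihQ =>
    obtain ⟨hc, hP, hQ⟩ := hP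
    obtain ⟨V0, c0, h0⟩ := run_cond c hc
    obtain ⟨V1, c1, h1⟩ := ihP hP
    obtain ⟨V2, c2, h2⟩ := ihQ hQ
    refine ⟨V0 + V1 + V2, c0 + c1 + c2 + 2, fun {D M G α d bit m0 repD Mo K} hb hO W hW => ?_⟩
    obtain ⟨pc, hpc⟩ := h0 (R := R) (d := d) hb m0 repD W (by omega)
    obtain ⟨p, hp⟩ := h1 hb hO W (by omega)
    obtain ⟨q, hq⟩ := h2 hb hO W (by omega)
    have hU : ∀ s n : ℕ, n ≤ s → pb c0 n + 3 ≤ (s + 2) ^ (c0 + c1 + c2 + 2) := by
      intro s n hn
      have e1 : pb c0 n ≤ (s + 2) ^ (c0 + c1 + c2) := pb_le (by omega) hn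
      have e2 : 1 ≤ (s + 2) ^ (c0 + c1 + c2) := Nat.one_le_pow _ _ (by omega)
      have e3 := four_mul_le ((s + 2) ^ (c0 + c1 + c2)) s
      rw [pow_add]
      omega
    have hM : ∀ s b e : ℕ, e ≤ c0 + c1 + c2 + 2 → b * (s + 2) ^ e ≤
        b * (s + 2) ^ (c0 + c1 + c2 + 2) := fun s b e he =>
      Nat.mul_le_mul_left _ (Nat.pow_le_pow_right (by omega) he)
    refine ⟨.seq pc (.ite (tst bit) (.seq (clr .tmp) p) (.seq (clr .tmp) q)),
      fun s st a b st' hr => ?_⟩
    cases hr with
    | @iteT _ _ _ _ _ _ b hs hct k1 =>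
      have r1 := hpc st.c st.x st.r
      rw [hct] at r1
      have r2 := Prog.Run.iteT (c := tst bit) (q := .seq (clr .tmp) q)
        (by exact tst_repS (S := S) hb (m0 := m0) (repD := repD) (W := W) st true)
        ((run_clrT (d := d) (bit := bit) m0 repD W st.c st.x st.r (enc true)).seq
          (hp s _ _ _ _ k1))
      refine (r1.seq r2).mono ?_
      have e1 := hM s b c1 (by omega)
      have e2 := hU s _ hs
      rw [add_mul, one_mul]
      omega
    | @iteF _ _ _ _ _ _ b hs hct k1 =>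
      have r1 := hpc st.c st.x st.r
      rw [hct] at r1
      have r2 := Prog.Run.iteF (c := tst bit) (p := .seq (clr .tmp) p)
        (by exact tst_repS (S := S) hb (m0 := m0) (repD := repD) (W := W) st false)
        ((run_clrT (d := d) (bit := bit) m0 repD W st.c st.x st.r (enc false)).seq
          (hq s _ _ _ _ k1))
      refine (r1.seq r2).mono ?_
      have e1 := hM s b c2 (by omega)
      have e2 := hU s _ hs
      rw [add_mul, one_mul]
      omega
  | loop c P ihP =>
    obtain ⟨hc, hP⟩ := hP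
    obtain ⟨V0, c0, h0⟩ := run_cond c hc
    obtain ⟨V1, c1, h1⟩ := ihP hP
    refine ⟨V0 + V1, c0 + c1 + 4, fun {D M G α d bit m0 repD Mo K} hb hO W hW => ?_⟩
    obtain ⟨pc, hpc⟩ := h0 (R := R) (d := d) hb m0 repD W (by omega)
    obtain ⟨p, hp⟩ := h1 hb hO W (by omega)
    refine ⟨.seq pc (.seq (.loop (tst bit) (.seq (clr .tmp) (.seq p pc))) (clr .tmp)),
      fun s st a b st' hr => ?_⟩
    have hV : ∀ n : ℕ, n ≤ s → pb c0 n ≤ (s + 2) ^ (c0 + c1) := fun n hn =>
      pb_le (by omega) hn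
    have hY : 1 ≤ (s + 2) ^ (c0 + c1) := Nat.one_le_pow _ _ (by omega)
    have hU : 3 + (s + 2) ^ (c0 + c1) ≤ (s + 2) ^ (c0 + c1 + 2) := by
      have e3 := four_mul_le ((s + 2) ^ (c0 + c1)) s
      rw [pow_add _ (c0 + c1) 2]
      omega
    have hU2 : 2 * (s + 2) ^ (c0 + c1 + 2) ≤ (s + 2) ^ (c0 + c1 + 4) := by
      have e3 := four_mul_le ((s + 2) ^ (c0 + c1 + 2)) s
      rw [show c0 + c1 + 4 = c0 + c1 + 2 + 2 by ring, pow_add _ (c0 + c1 + 2) 2]
      omega
    obtain ⟨k1, k2, k3⟩ := loop_aux (U := (s + 2) ^ (c0 + c1 + 2)) (V := (s + 2) ^ (c0 + c1))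
      hb hU (fun st hs => (hpc st.c st.x st.r).mono (hV _ hs))
      (fun st a b st' hr => (hp s st a b st' hr).mono (Nat.add_le_add_left
        (Nat.mul_le_mul_left _ (Nat.pow_le_pow_right (by omega) (by omega))) _)) hr
    have r1 := hpc st.c st.x st.r
    refine (r1.seq (k3.seq (run_clrT (d := d) (bit := bit) m0 repD W st'.c st'.x st'.r
      (enc false)))).mono ?_
    have e1 := hV _ k1
    have e2 : b * (2 * (s + 2) ^ (c0 + c1 + 2)) ≤ b * (s + 2) ^ (c0 + c1 + 4) :=
      Nat.mul_le_mul_left _ hU2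
    have e3 : (s + 2) ^ (c0 + c1 + 2) ≤ b * (s + 2) ^ (c0 + c1 + 2) :=
      Nat.le_mul_of_pos_left _ (by omega)
    have e4 : b * (2 * (s + 2) ^ (c0 + c1 + 2)) = 2 * (b * (s + 2) ^ (c0 + c1 + 2)) := by ring
    omega

/-- Simulation, with `HRun`. -/
theorem HP.simRun (P : HP S R O) (hP : P.Ok) :
    ∃ V c : ℕ, ∀ {D M G α : Type} {d : α} {bit : Bool → α} {m0 : M} {repD : D → G → Zip α}
      {Mo : Sem R O D} {K : ℕ} (_ : bit true ≠ bit false) (_ : Ops d bit m0 repD Mo K) (W : ℕ),
      V ≤ W → ∃ p : Prog M (CF G R W) α,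
      ∀ (s : ℕ) (st : HS S R D) (a b : ℕ) (st' : HS S R D), HRun Mo s P st a b st' →
        Prog.Run d p (repS W bit m0 repD st []) (K * a + b * (s + 2) ^ c)
          (repS W bit m0 repD st' []) := by
  obtain ⟨V, c, h⟩ := HP.sim P hP
  refine ⟨V, c, fun {D M G α d bit m0 repD Mo K} hb hO W hW => ?_⟩
  obtain ⟨p, hp⟩ := h hb hO W hW
  refine ⟨p, fun s st a b st' ⟨a', ha, b', hb', hr⟩ => ?_⟩
  exact (hp s st a' b' st' hr).mono (Nat.add_le_add (Nat.mul_le_mul_left _ ha)
    (Nat.mul_le_mul_right _ hb'))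

end sim

end Vale.Agent.P338.D.CM
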